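import Vale.Agent.N213E.Main

open CategoryTheory SSet.modelCategoryQuillen Vale.Agent.P213Z.G Vale.Agent.N213E

/-- The equivariant form of the Ara-Maltsiniotis conjecture: for a group `G` and a set `𝓕` of
subgroups, the classes detected on `H`-fixed points, `H ∈ 𝓕`, are model structures on simplicial
sets and on strict `n`-categories with an action of `G`, and `c Sd² ⊣ Ex² N` is a Quillen
equivalence between them. -/
theorem Vale.Agent.Results.P213.A0Equivariant.result (n : ℕ∞) (hn : 1 ≤ n)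
    (G : Type) [Group G] (𝓕 : Set (Subgroup G)) :
    IsModel (sC 𝓕) (onFix 𝓕 weq) (onFix 𝓕 J.rlp) ∧
    IsModel (gC 𝓕 (nerve n)) (gW 𝓕 (nerve n)) (gF 𝓕 (nerve n)) ∧
    ∀ c (h : c ⊣ nerve n), IsQE (((SSet.sdExAdjunction.comp SSet.sdExAdjunction).comp
      h).whiskerRight (SingleObj G)) (sC 𝓕) (onFix 𝓕 weq) (gC 𝓕 (nerve n)) (gW 𝓕 (nerve n)) :=
  ⟨model_sset 𝓕, model_ncat hn 𝓕, fun _ a => qe hn a 𝓕⟩
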